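import Vale.Agent.P214W79.Norm
import Vale.Agent.P214T.Fin42
import Vale.Agent.P214.BPT.Fin

/-! The singular set of a stationary integral `m`-varifold has Hausdorff dimension at most
`m - 1`, with the normalised Hausdorff measure and with minimal meaning zero mean curvature. -/

open MeasureTheory Set
open scoped ENNReal

namespace Vale.Agent.Results.P214.AAAMeanCurvature

open Vale.Agent.P214W79

/-- The mean curvature vector of a smooth embedded submanifold is well defined. For any integral
`m`-varifold `V`, `m ≥ 1`, in an open set `U` of a Euclidean space `E`, the approximate tangent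
plane exists and is unique almost everywhere, the first variation integrand is integrable, and if
`V` is stationary then its singular set has dimension at most `m - 1` and is `H^m`-null. -/
theorem result {E : Type*} [NormedAddCommGroup E] [InnerProductSpace ℝ E]
    [FiniteDimensional ℝ E] [MeasurableSpace E] [BorelSpace E] {m : ℕ} (hm : 1 ≤ m) :
    (∀ S : Set E, IsSmoothSubmanifold m S → ∀ p ∈ S, ∃! H : E, IsMeanCurv m S p H) ∧
    ∀ U : Set E, IsOpen U → ∀ V : Varifold m U,
      (∀ᵐ x ∂V.weight, ∃! T, IsTangent m V.weight x T) ∧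
      (∀ X, IsTestField U X → Integrable (fun x => divAlong (V.tangent x) X x) V.weight) ∧
      (V.IsStationary → dimH V.sing ≤ ((m - 1 : ℕ) : ℝ≥0∞) ∧ (μHE[m] : Measure E) V.sing = 0) := by
  refine ⟨fun S hS p hp => existsUnique_meanCurv hS hp, fun U hU V => ⟨?_, fun X hX => ?_,
    fun hV => ?_⟩⟩
  · simp only [V.isTangent_weight]
    exact V.weight_ac.ae_le (P214T.exists_unique_tangent hU V.old)
  · refine V.integrable_div ?_ hX
    simp only [V.tangent_eq]
    exact (P214T.Top99.main hU V.old).1.mono_ac V.weight_ac
  · have h1 : dimH V.old.sing ≤ ((m - 1 : ℕ) : ℝ≥0∞) :=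
      Vale.Agent.P214.BPT.dimH_sing_le hm hU (P214T.Top99.toIV hU V.old) (V.stationary hV)
    have h2 : dimH V.sing ≤ ((m - 1 : ℕ) : ℝ≥0∞) :=
      (dimH_mono (V.sing_subset (P214T.Top99.toIV hU V.old) rfl rfl)).trans h1
    refine ⟨h2, ?_⟩
    have h3 : dimH V.sing < ((m : NNReal) : ℝ≥0∞) := by
      refine h2.trans_lt ?_
      rw [ENNReal.coe_natCast]
      exact_mod_cast Nat.sub_lt hm one_pos
    have h4 := hausdorffMeasure_of_dimH_lt h3
    rw [NNReal.coe_natCast] at h4
    rw [hE, Measure.smul_apply, h4, smul_zero]

end Vale.Agent.Results.P214.AAAMeanCurvature
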